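import Vale.Agent.P204.Main
import Vale.Agent.P204.Instance

namespace Vale.Agent.Results.P204.FibreTranslation

open Vale.Agent.P204

/-- On every three-torus bundle over the circle with monodromy in `GL(3, ℤ)`, an almost complex
structure which is invariant under the translations of the fibres and is tamed by some closed
form has a compatible closed form. The hypotheses are satisfiable with non-trivial monodromy. -/
theorem result :
    (∀ (A : Matrix (Fin 3) (Fin 3) ℤ), IsUnit A.det → ∀ J : ℝ → M4, IsInvariantACS A J →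
      (∃ Ω, IsClosedForm A Ω ∧ Tames J Ω) →
        ∃ Θ, IsClosedForm A Θ ∧ Tames J Θ ∧ Invariant J Θ) ∧
    ∃ (A : Matrix (Fin 3) (Fin 3) ℤ) (J : ℝ → M4) (Ω : V4 → M4),
      IsUnit A.det ∧ A ≠ 1 ∧ IsInvariantACS A J ∧ IsClosedForm A Ω ∧ Tames J Ω :=
  ⟨fun _ hA _ hJ ⟨_, hΩ, hT⟩ => tamed_to_compatible hA hJ hΩ hT, exists_instance⟩

end Vale.Agent.Results.P204.FibreTranslation
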